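import Vale.Agent.P140.H119.Main

open MeasureTheory
open Vale.Agent.P140.H119

namespace Vale.Agent.Results.P140.ContinuumOfSolutions

/-- Some datum has two different renormalized entropy solutions. Moreover, arbitrarily small data,
supported in a thin tube around a closed straight line, have at each small positive time a whole
continuum of pairwise different renormalized entropy solutions. -/
theorem result : Nonuniqueness ∧ SmallContinuum :=
  ⟨Vale.Agent.P140.NU.h119_old, Vale.Agent.P140.NU.h119_main⟩

end Vale.Agent.Results.P140.ContinuumOfSolutions
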