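import Vale.Agent.P140.H725.Main

open MeasureTheory
open Vale.Agent.P140.H725

namespace Vale.Agent.Results.P140.EnergyConserving

/-- Some datum has two different renormalized entropy solutions. Moreover, arbitrarily small data
have at each small positive time a whole continuum of pairwise different renormalized entropy
solutions, which all have Gaussian moments, conserve the energy exactly and satisfy the local
conservation laws of momentum and energy. -/
theorem result : Nonuniqueness ∧ LosslessContinuum :=
  ⟨Vale.Agent.P140.NU.h725_old, Vale.Agent.P140.NU.h725_main⟩

end Vale.Agent.Results.P140.EnergyConserving
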